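import Vale.Agent.P032Baire.Five
import Vale.Agent.P032Baire.Reduce

namespace Vale.Agent.Results.P032.BaireSix

open Vale.Agent.P032Baire

theorem result (k : ℕ) (G : Set ℂ) (hG : G ∈ residual ℂ) (c : ℂ → Fin k)
    (hproper : ∀ x ∈ G, ∀ y ∈ G, dist x y = 1 → c x ≠ c y)
    (hBaire : ∀ i, BaireMeasurableSet (c ⁻¹' {i})) : 6 ≤ k :=
  six_le_of_three (fun C x => C.card_T_le_three x) k G hG c hproper hBaire

end Vale.Agent.Results.P032.BaireSix
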